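import Vale.Agent.P269.Coh.EPk
import Vale.Agent.P269.Kit.Cap
import Vale.Agent.P269.Deg.Step

/-!
# The Virasoro constraints for the blow-up of a complete intersection
-/

set_option linter.unusedSectionVars false

namespace Vale.Agent.P269.Flag

open P291Z Set Function Topology Filter MvPolynomial Fock Coh

variable {J K : Type} [Fintype J] [Fintype K] [Nonempty J] {f : Flag J K} (h : f.Ok)
  {θ : Option Unit → ℤ}

/-- **The blow-up.** -/
theorem Ok.vsB (hK : St.Kit) (hJ : St.Proj) (gL : St.G3L) (gR : St.G3R) (gQ : St.G3Q)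
    {hE : (f.tE θ).Tg} {νW νZ νE νB} (b : h.BG hE νW νZ νE νB) (vW : h.W.tg.VG νW)
    (vZ : h.Z.tg.VG νZ) : h.tB.VS f.gB νB := by
  classical
  obtain ⟨t, r, s⟩ := h.pE.exists_disc
  obtain ⟨θ', hQ⟩ := h.exists_tQ
  obtain ⟨νQ, qQ, pQ⟩ := h.Z.tg.exists_gr hQ.qm (Fam.dT_proj _ _ θ') b.gZ
  obtain ⟨νD, ν₁, ν₂, ν, gD, g₁, g₂, g, cD, c₁, c₂, c, j₁, j₂, rl⟩ :=
    Ok.BG.exists_gr h (hQ := hQ) b qQ pQ s.toSks
  obtain ⟨μ₁, k₁, p₁⟩ := Pre.exists_grL gD
  obtain ⟨μ₂, k₂, p₂⟩ := Pre.exists_grR gD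
  obtain ⟨μ, k, p⟩ := Pre.exists_grX gD s.mem s.ne
  obtain ⟨νL, gXL, pL⟩ := Pre.exists_grXL s.mem s.ne g₁
  obtain ⟨νR, gXR, pR⟩ := Pre.exists_grXR s.mem s.ne g₂
  have n1 : f.tW.dT = f.pE.n + 1 := by rw [n_pE]; ring
  have vE : hE.VG νE := vZ.proj hJ hE one_pos b.gE b.p
  have vQ : hQ.VG νQ := vZ.proj hJ hQ two_pos qQ pQ
  have key := Deg.stepBl f.pE.g h.pE.dv
    { c := s.cap h.pE hK gL gR
      dD := gD.vd (f.pE.κ true true)
      v := s.capVir hK gL gR gD k₁ k₂ k p₁ p₂ p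
        ((h.mE hE).virC s.mem s.ne hK hJ (dT_E.trans n_pE.symm) κE_E cD k p vE)
      B := h.pE.pzL true
      FB := h.pE.FL true
      relB := h.pE.relFL hK true
      dB := g₁.vd (f.pE.κ true true)
      cmpB := Pre.cmpL gD g₁ j₁
      Q := h.czQ
      FQ := h.pE.FR true
      relQ := h.pE.relFR hK true
      dQ := g₂.vd (f.pE.κ true true)
      cmpQ := Pre.cmpR gD g₂ j₂
      s := 4
      hs := by norm_num
      g3Q := (gQ f h.pE.dv .id h.czQ .id h h.pE.qD.isCoh (h.pE.qR true).isCoh.ev h.czQ_range).some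
      sQ := s.smo h.pE hK true false
      surjQ := s.toSks.surjR h.pE
      dQX := gXR.vd (f.pE.κ true false)
      relQX := s.toSks.relD_R gD k₁ g₂ gXR p₁ j₂ pR
      virQ := (h.mQ hQ).virR s.mem s.ne hK (dT_Q.trans n1) κE_Q c₂ gXR pR vQ
      sX := s.smo h.pE hK true true
      surjX := h.surjE s.toSks
      dX := g.vd (f.pE.κ true true)
      relX := rl
      virX := (h.mW s.ne).virX s.mem s.ne hK n1 κE_W c g vW
      sB := s.smo h.pE hK false true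
      surjB := s.toSks.surjL h.pE
      dBX := gXL.vd (f.pE.κ false true)
      relBX := s.toSks.relD_L gD g₁ k₂ gXL j₁ p₂ pL }
  exact (h.mB'.virL_iff s.mem s.ne hK (dT_B.trans n1) κE_B c₁ gXL pL θE_B).2 key

end Vale.Agent.P269.Flag
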